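import Mathlib
import Vale.Agent.P146.Bound

/-!
P146: the lower bound on the variance of the SK free energy diverges at the critical temperature.
-/

open MeasureTheory ProbabilityTheory Filter Topology Finset
open Vale.Agent.P150

namespace Vale.Agent.Results.P146.CriticalDivergence

theorem result :
    (∀ (J : ℕ) (β η : ℝ), 1 ≤ β → 0 < η → ∀ᶠ n : ℕ in atTop,
      (∑ j ∈ range J, β ^ (2 * (j + 3)) / (2 * (j + 3 : ℝ)) *
          (max 0 (1 - (j + 2 : ℝ) * (2 * (j + 3 : ℝ)) ^ (j + 2) * (1 - 1 / β))) ^ 2) - η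
        ≤ variance (fun g : Pair n → ℝ => Real.log (∑ x : Conf n, Real.exp (energy n β g x)))
            (disorder n)) ∧
    (∀ M : ℝ, ∃ δ > 0, ∀ β ∈ Set.Icc (1 : ℝ) (1 + δ), ∀ᶠ n : ℕ in atTop,
      M ≤ variance (fun g : Pair n → ℝ => Real.log (∑ x : Conf n, Real.exp (energy n β g x)))
            (disorder n)) ∧
    Tendsto (fun n : ℕ => variance
      (fun g : Pair n → ℝ => Real.log (∑ x : Conf n, Real.exp (energy n 1 g x))) (disorder n))
      atTop atTop := by
  have e : ∀ (n : ℕ) (β : ℝ),
      variance (fun g : Pair n → ℝ => Real.log (∑ x : Conf n, Real.exp (energy n β g x))) (disorder n)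
        = variance (lse (hv n (β / Real.sqrt n))) (gp (Pair n)) := fun n β => by
    have h : (fun g : Pair n → ℝ => Real.log (∑ x : Conf n, Real.exp (energy n β g x)))
        = lse (hv n (β / Real.sqrt n)) := by
      funext g; simp [lse, energy_eq]
    rw [h]; rfl
  simp only [e]
  refine ⟨fun J β η hβ hη => Vale.Agent.P146.variance_asymp J hβ hη,
    Vale.Agent.P146.variance_blowup, ?_⟩
  refine tendsto_atTop.2 fun M => ?_
  obtain ⟨δ, hδ, h⟩ := Vale.Agent.P146.variance_blowup M
  exact h 1 ⟨le_rfl, by linarith⟩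

end Vale.Agent.Results.P146.CriticalDivergence
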